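import Vale.Agent.P232.H732.Classify

open MeasureTheory

namespace Vale.Agent.Results.P232.CubeAndTorus

open Vale.Agent.P232

/-- The isoperimetric problem in the cubic three-torus (profile and all minimizers) and the
relative (free boundary) isoperimetric problem in the open unit cube (profile and all
minimizers). -/
theorem result :
    -- the torus
    ((∀ V : ℝ, 0 < V → V < 1 → profile 3 V = ENNReal.ofReal (J V)) ∧
    (∀ E : Set (Fin 3 → ℝ), MeasurableSet E → IsPeriodic E → 0 < vol E → vol E < 1 →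
      (perimeter E = profile 3 (vol E) ↔
        (vol E ≤ 1 / 2 ∧ ∃ B, Model (vol E) B ∧ E =ᵐ[volume] B) ∨
        (1 / 2 ≤ vol E ∧ ∃ B, Model (1 - vol E) B ∧ E =ᵐ[volume] (Bᶜ : Set (Fin 3 → ℝ))))) ∧
    (∀ (v : ℝ) (B : Set (Fin 3 → ℝ)), 0 < v → v ≤ 1 / 2 → Model v B →
      MeasurableSet B ∧ IsPeriodic B ∧ vol B = v ∧ perimeter B = ENNReal.ofReal (J v))) ∧
    -- the cube
    ((∀ V : ℝ, 0 < V → V < 1 → relProfile 3 V = ENNReal.ofReal (J V / 2)) ∧
    (∀ E : Set (Fin 3 → ℝ), MeasurableSet E → E ⊆ openCube 3 →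
      0 < (volume E).toReal → (volume E).toReal < 1 →
      (relPerimeter E = relProfile 3 (volume E).toReal ↔
        ((volume E).toReal ≤ 1 / 2 ∧ ∃ B, CubeModel (volume E).toReal B ∧ E =ᵐ[volume] B) ∨
        (1 / 2 ≤ (volume E).toReal ∧ ∃ B, CubeModel (1 - (volume E).toReal) B ∧
          E =ᵐ[volume] (openCube 3 \ B : Set (Fin 3 → ℝ))))) ∧
    (∀ (v : ℝ) (B : Set (Fin 3 → ℝ)), 0 < v → v ≤ 1 / 2 → CubeModel v B →
      MeasurableSet B ∧ B ⊆ openCube 3 ∧ (volume B).toReal = v ∧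
        relPerimeter B = ENNReal.ofReal (J v / 2))) :=
  ⟨classification_of_mid midStatement_holds,
    fun _ h0 h1 => H732.relProfile_eq h0 h1,
    fun _ mE hE h0 h1 => H732.relMinimizer_iff mE hE h0 h1,
    fun _ _ h0 h1 hB => H732.cubeModel_spec hB h0 h1⟩

end Vale.Agent.Results.P232.CubeAndTorus
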