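import Vale.Agent.P232.H109.TorusBridge

open MeasureTheory

namespace Vale.Agent.Results.P232.UniformStability

open Vale.Agent.P232.H109.Torus

/-- The isoperimetric problem in the cubic flat three-torus `T = (ℝ/ℤ)³`: (1) the profile and all
minimizers; (2) uniform stability: a set of almost minimal perimeter, of any volume, is close in
measure to a model region or to the complement of one. -/
theorem result :
    -- (1) Q1
    ((∀ V : ℝ, 0 < V → V < 1 → profile V = ENNReal.ofReal (J V)) ∧
    (∀ E : Set T, MeasurableSet E → 0 < volume.real E → volume.real E < 1 →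
      (perimeter E = profile (volume.real E) ↔
        (volume.real E ≤ 1 / 2 ∧ ∃ B, Model (volume.real E) B ∧ E =ᵐ[volume] B) ∨
        (1 / 2 ≤ volume.real E ∧
          ∃ B, Model (1 - volume.real E) B ∧ E =ᵐ[volume] ((B)ᶜ : Set T)))) ∧
    (∀ (v : ℝ) (B : Set T), 0 < v → v ≤ 1 / 2 → Model v B →
      MeasurableSet B ∧ volume.real B = v ∧ perimeter B = ENNReal.ofReal (J v))) ∧
    -- (2) uniform stability
    (∀ ε : ℝ, 0 < ε → ∃ δ : ℝ, 0 < δ ∧ ∀ E : Set T, MeasurableSet E →
      perimeter E ≤ ENNReal.ofReal (J (volume.real E) + δ) →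
      ∃ v B, 0 < v ∧ v ≤ 1 / 2 ∧ Model v B ∧
        (volume.real (symmDiff E B) ≤ ε ∨ volume.real (symmDiff E (B)ᶜ) ≤ ε)) :=
  ⟨⟨fun _ h0 h1 => torus_profile h0 h1, fun _ hE h0 h1 => torus_iff hE h0 h1,
    fun _ _ h0 h1 hB => torus_model h0 h1 hB⟩, fun _ hε => torus_stability hε⟩

end Vale.Agent.Results.P232.UniformStability
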